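import Mathlib
import Vale.Agent.Lib.P249.Core2

/-!
# P249: linear dimension reduction for finite subsets of `ℓ_p`, `p ≥ 2`

For `p ≥ 2` there is `C = C(p)` such that for `0 < ε ≤ 1` and `n ≥ 2` there is
`d ≤ C n log n / ε ^ 2` such that for any `n` points of `ℓ_p^m` some linear map `ℓ_p^m → ℓ_p^d`
preserves the `p`-th powers of all pairwise distances up to factors `1 ± ε`.
-/

namespace Vale.Agent.Results.P249.LinearEps

open Finset

theorem result (p : ℝ) (hp : 2 ≤ p) :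
    ∃ C : ℝ, ∀ ε : ℝ, 0 < ε → ε ≤ 1 → ∀ n : ℕ, 2 ≤ n →
      ∃ d : ℕ, (d : ℝ) ≤ C * n * Real.log n / ε ^ 2 ∧
        ∀ (m : ℕ) (x : Fin n → Fin m → ℝ),
          ∃ T : (Fin m → ℝ) →ₗ[ℝ] (Fin d → ℝ), ∀ i j,
            (1 - ε) * ∑ k, |(x i - x j) k| ^ p ≤ ∑ r, |T (x i - x j) r| ^ p ∧
            ∑ r, |T (x i - x j) r| ^ p ≤ (1 + ε) * ∑ k, |(x i - x j) k| ^ p := by
  set K : ℝ := Vale.Agent.Lib.P249.keyConst2 p with hK
  have hK0 : 0 ≤ K := Vale.Agent.Lib.P249.keyConst2_nonneg p hp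
  refine ⟨24 * K + 1, fun ε hε0 hε1 n hn => ?_⟩
  have hnR : (2 : ℝ) ≤ n := by exact_mod_cast hn
  have hn0 : (0 : ℝ) < n := by linarith
  have hlog2 : (0.6931471803 : ℝ) < Real.log 2 := Real.log_two_gt_d9
  have hlogn : Real.log 2 ≤ Real.log n := Real.log_le_log (by norm_num) hnR
  have hlogn0 : 0 < Real.log n := by linarith
  have hlog2n : Real.log (2 * (n : ℝ) ^ 2) ≤ 3 * Real.log n := by
    rw [Real.log_mul (by norm_num) (by positivity), Real.log_pow]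
    push_cast
    linarith
  have hlog2n0 : 0 ≤ Real.log (2 * (n : ℝ) ^ 2) := by
    apply Real.log_nonneg; nlinarith
  set X : ℝ := 4 * (2 * K * n) * Real.log (2 * (n : ℝ) ^ 2) / ε ^ 2 with hX
  have hX0 : 0 ≤ X := by rw [hX]; positivity
  have hε2 : 0 < ε ^ 2 := by positivity
  refine ⟨⌊X⌋₊ + 1, ?_, ?_⟩
  · -- size of the dimension
    have h1 : ((⌊X⌋₊ + 1 : ℕ) : ℝ) ≤ X + 1 := by
      push_cast
      linarith [Nat.floor_le hX0]
    have h4 : X ≤ 24 * K * n * Real.log n / ε ^ 2 := by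
      rw [hX]
      apply div_le_div_of_nonneg_right _ hε2.le
      have h5 : 4 * (2 * K * n) * Real.log (2 * (n : ℝ) ^ 2) ≤
          4 * (2 * K * n) * (3 * Real.log n) :=
        mul_le_mul_of_nonneg_left hlog2n (by positivity)
      refine h5.trans (le_of_eq ?_)
      ring
    have h6 : (1 : ℝ) ≤ 1 * n * Real.log n / ε ^ 2 := by
      rw [le_div_iff₀ hε2]
      have h7 : ε ^ 2 ≤ 1 := by nlinarith
      nlinarith
    calc ((⌊X⌋₊ + 1 : ℕ) : ℝ) ≤ X + 1 := h1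
      _ ≤ 24 * K * n * Real.log n / ε ^ 2 + 1 * n * Real.log n / ε ^ 2 := add_le_add h4 h6
      _ = (24 * K + 1) * n * Real.log n / ε ^ 2 := by ring
  · -- the embedding
    intro m x
    have hd : 4 * (2 * K * n) * Real.log (2 * (n : ℝ) ^ 2) <
        ε ^ 2 * ((⌊X⌋₊ + 1 : ℕ) : ℝ) := by
      have h1 : X < ((⌊X⌋₊ + 1 : ℕ) : ℝ) := by push_cast; exact Nat.lt_floor_add_one X
      have h2 : X * ε ^ 2 < ((⌊X⌋₊ + 1 : ℕ) : ℝ) * ε ^ 2 :=
        mul_lt_mul_of_pos_right h1 (by positivity)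
      have h3 : X * ε ^ 2 = 4 * (2 * K * n) * Real.log (2 * (n : ℝ) ^ 2) := by
        rw [hX]; field_simp
      rw [h3] at h2
      linarith
    obtain ⟨T, hy⟩ := Vale.Agent.Lib.P249.dim_reduction_linear2 p hp n m (⌊X⌋₊ + 1)
      ε hε0 hε1 hd x
    refine ⟨T, fun i j => ?_⟩
    simp only [map_sub, Pi.sub_apply]
    exact hy i j

end Vale.Agent.Results.P249.LinearEps
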