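import Vale.Agent.Lib.P249.Lower.Grid
import Vale.Agent.Lib.P249.Lower.Mono

/-!
# P249: for `p > 2` the dimension `d_p(n, D)` grows faster than `log n`

For every `p > 2` there is `c > 0` with `d_p(n, D) ≥ c (log n / log log n)^(p/2) / D^p`.
-/

namespace Vale.Agent.Results.P249.LowerBound

open Vale.Agent.Lib.P249.Lower

theorem result (p : ℝ) (hp : 2 < p) :
    ∃ c : ℝ, 0 < c ∧ ∀ D : ℝ, 1 ≤ D → ∀ n : ℕ, 16 ≤ n → ∀ d : ℕ, Embeds p n D d →
      c * (Real.log n / Real.log (Real.log n)) ^ (p / 2) / D ^ p ≤ d := by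
  have hp0 : 0 < p := by linarith
  have hpp : 0 < p ^ (2 * p) := Real.rpow_pos_of_pos hp0 _
  set Q : ℝ := 8 * Real.exp 3 * p ^ (2 * p) with hQ
  have hQ0 : 0 < Q := by positivity
  refine ⟨(1 / 80 : ℝ) ^ (p / 2) / Q, by positivity, fun D hD n hn d hE => ?_⟩
  have hD0 : 0 < D := by linarith
  have hDp : 0 < D ^ p := Real.rpow_pos_of_pos hD0 p
  obtain ⟨k, hk1, hkn, hkL⟩ := exists_k n hn
  have hE' : Embeds p ((k + 1) ^ k) D d := hE.mono hp0 hkn
  have hG := embeds_grid p hp.le k d hk1 D hD0 hE'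
  rw [← hQ] at hG
  -- positivity of the logarithms
  have hn16 : (16 : ℝ) ≤ n := by exact_mod_cast hn
  have hlog2 : (0.6931471803 : ℝ) < Real.log 2 := Real.log_two_gt_d9
  have hL16 : Real.log 16 = 4 * Real.log 2 := by
    have : (16 : ℝ) = 2 ^ (4 : ℕ) := by norm_num
    rw [this, Real.log_pow]; norm_num
  have hL : (2.7 : ℝ) < Real.log n := by
    have := Real.log_le_log (by norm_num) hn16
    rw [hL16] at this
    linarith
  have hLL : 0 < Real.log (Real.log n) := Real.log_pos (by linarith)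
  have hr0 : 0 ≤ Real.log n / Real.log (Real.log n) := by
    apply div_nonneg _ hLL.le
    linarith
  have h1 : 1 / 80 * (Real.log n / Real.log (Real.log n)) ≤ (k : ℝ) / 20 := by
    have : Real.log n / (4 * Real.log (Real.log n)) =
        1 / 4 * (Real.log n / Real.log (Real.log n)) := by
      field_simp
    rw [this] at hkL
    linarith
  have h2 : (1 / 80 : ℝ) ^ (p / 2) * (Real.log n / Real.log (Real.log n)) ^ (p / 2) ≤
      ((k : ℝ) / 20) ^ (p / 2) := by
    rw [← Real.mul_rpow (by norm_num) hr0]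
    exact Real.rpow_le_rpow (by positivity) h1 (by linarith)
  have h3 := le_trans h2 hG
  rw [div_le_iff₀ hDp, div_mul_eq_mul_div, div_le_iff₀ hQ0]
  calc (1 / 80 : ℝ) ^ (p / 2) * (Real.log n / Real.log (Real.log n)) ^ (p / 2)
      ≤ d * Q * D ^ p := h3
    _ = d * D ^ p * Q := by ring

end Vale.Agent.Results.P249.LowerBound
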