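import Mathlib
import Vale.Agent.Lib.P249.Core2

/-!
# P249: dimension reduction for finite subsets of `ℓ_p`, `p ≥ 2`, with `O(n log n)` coordinates

For every `p ≥ 2` and `D > 1` there is `C` with `d_p(n, D) ≤ C n log n` for all `n ≥ 2`.
For `p > 2` this improves the bounds `binom n 2` and `C n^(p/2) log n`.
-/

namespace Vale.Agent.Results.P249.NLogN

open Finset

/-- The norm of `ℓ_p^d`: `(∑ |y k| ^ p) ^ (1 / p)`. -/
noncomputable def lpNorm (p : ℝ) {d : ℕ} (y : Fin d → ℝ) : ℝ := (∑ k, |y k| ^ p) ^ (1 / p)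

/-- `Embeds p n D d`: every `n`-point subset of every `ℓ_p^m` admits a map into `ℓ_p^d` with
distortion at most `D` (with a scaling factor `s > 0`, as in the problem). -/
def Embeds (p : ℝ) (n : ℕ) (D : ℝ) (d : ℕ) : Prop :=
  ∀ (m : ℕ) (x : Fin n → Fin m → ℝ), Function.Injective x →
    ∃ (f : Fin n → Fin d → ℝ) (s : ℝ), 0 < s ∧ ∀ i j,
      s * lpNorm p (x i - x j) ≤ lpNorm p (f i - f j) ∧
      lpNorm p (f i - f j) ≤ D * s * lpNorm p (x i - x j)

theorem result (p : ℝ) (hp : 2 ≤ p) (D : ℝ) (hD : 1 < D) :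
    ∃ C : ℝ, ∀ n : ℕ, 2 ≤ n →
      ∃ d : ℕ, (d : ℝ) ≤ C * n * Real.log n ∧ Embeds p n D d := by
  have hp0 : 0 < p := by linarith
  have hpne : p ≠ 0 := hp0.ne'
  have hD0 : 0 < D := by linarith
  have hDp : 1 < D ^ p := Real.one_lt_rpow hD hp0
  set ε : ℝ := (D ^ p - 1) / (D ^ p + 1) with hε
  have hε0 : 0 < ε := by rw [hε]; apply div_pos <;> linarith
  have hε1 : ε < 1 := by rw [hε, div_lt_one (by linarith)]; linarith
  have h1mε : 1 - ε = 2 / (D ^ p + 1) := by rw [hε]; field_simp; ring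
  have h1pε : 1 + ε = D ^ p * (1 - ε) := by rw [h1mε, hε]; field_simp; ring
  set K : ℝ := Vale.Agent.Lib.P249.keyConst2 p with hK
  have hK0 : 0 ≤ K := Vale.Agent.Lib.P249.keyConst2_nonneg p hp
  refine ⟨24 * K / ε ^ 2 + 1, fun n hn => ?_⟩
  have hnR : (2 : ℝ) ≤ n := by exact_mod_cast hn
  have hn0 : (0 : ℝ) < n := by linarith
  have hlog2 : (0.6931471803 : ℝ) < Real.log 2 := Real.log_two_gt_d9
  have hlogn : Real.log 2 ≤ Real.log n := Real.log_le_log (by norm_num) hnR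
  have hlogn0 : 0 < Real.log n := by linarith
  have hlog2n : Real.log (2 * (n : ℝ) ^ 2) ≤ 3 * Real.log n := by
    rw [Real.log_mul (by norm_num) (by positivity), Real.log_pow]
    push_cast
    linarith
  have hlog2n0 : 0 ≤ Real.log (2 * (n : ℝ) ^ 2) := by
    apply Real.log_nonneg; nlinarith
  set X : ℝ := 4 * (2 * K * n) * Real.log (2 * (n : ℝ) ^ 2) / ε ^ 2 with hX
  have hX0 : 0 ≤ X := by rw [hX]; positivity
  refine ⟨⌊X⌋₊ + 1, ?_, ?_⟩
  · -- size of the dimension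
    have h1 : ((⌊X⌋₊ + 1 : ℕ) : ℝ) ≤ X + 1 := by
      push_cast
      linarith [Nat.floor_le hX0]
    have h4 : X ≤ 24 * K / ε ^ 2 * n * Real.log n := by
      rw [hX, div_le_iff₀ (by positivity)]
      have h5 : 4 * (2 * K * n) * Real.log (2 * (n : ℝ) ^ 2) ≤
          4 * (2 * K * n) * (3 * Real.log n) :=
        mul_le_mul_of_nonneg_left hlog2n (by positivity)
      refine h5.trans (le_of_eq ?_)
      field_simp
      ring
    have h6 : (1 : ℝ) ≤ 1 * n * Real.log n := by nlinarith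
    calc ((⌊X⌋₊ + 1 : ℕ) : ℝ) ≤ X + 1 := h1
      _ ≤ 24 * K / ε ^ 2 * n * Real.log n + 1 * n * Real.log n := add_le_add h4 h6
      _ = (24 * K / ε ^ 2 + 1) * n * Real.log n := by ring
  · -- the embedding
    intro m x _
    have hd : 4 * (2 * K * n) * Real.log (2 * (n : ℝ) ^ 2) <
        ε ^ 2 * ((⌊X⌋₊ + 1 : ℕ) : ℝ) := by
      have h1 : X < ((⌊X⌋₊ + 1 : ℕ) : ℝ) := by push_cast; exact Nat.lt_floor_add_one X
      have h2 : X * ε ^ 2 < ((⌊X⌋₊ + 1 : ℕ) : ℝ) * ε ^ 2 :=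
        mul_lt_mul_of_pos_right h1 (by positivity)
      have h3 : X * ε ^ 2 = 4 * (2 * K * n) * Real.log (2 * (n : ℝ) ^ 2) := by
        rw [hX]; field_simp
      rw [h3] at h2
      linarith
    obtain ⟨T, hy⟩ := Vale.Agent.Lib.P249.dim_reduction_linear2 p hp n m (⌊X⌋₊ + 1)
      ε hε0 hε1.le hd x
    have h1mε0 : 0 < 1 - ε := by linarith
    refine ⟨fun i => T (x i), (1 - ε) ^ (1 / p), Real.rpow_pos_of_pos h1mε0 _, fun i j => ?_⟩
    obtain ⟨hlo, hhi⟩ := hy i j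
    have hsx0 : 0 ≤ ∑ k, |x i k - x j k| ^ p := sum_nonneg (fun k _ => by positivity)
    have hinv0 : 0 ≤ 1 / p := by positivity
    simp only [lpNorm, Pi.sub_apply]
    constructor
    · rw [← Real.mul_rpow h1mε0.le hsx0]
      exact Real.rpow_le_rpow (mul_nonneg h1mε0.le hsx0) hlo hinv0
    · have h5 : D * (1 - ε) ^ (1 / p) * (∑ k, |x i k - x j k| ^ p) ^ (1 / p) =
          ((1 + ε) * ∑ k, |x i k - x j k| ^ p) ^ (1 / p) := by
        rw [h1pε, Real.mul_rpow (by positivity) hsx0,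
          Real.mul_rpow (by positivity) h1mε0.le, one_div, Real.rpow_rpow_inv hD0.le hpne]
      rw [h5]
      exact Real.rpow_le_rpow (sum_nonneg (fun k _ => by positivity)) hhi hinv0

end Vale.Agent.Results.P249.NLogN
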