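import Mathlib
import Vale.Agent.Lib.P249.Lower.EmbDefs
import Vale.Agent.Results.P249.LinearEps
import Vale.Agent.Results.P249.LowerBound
import Vale.Agent.Results.P249.NLogN

/-!
# P249: the three results on `d_p(n, D)`, `p ≥ 2`, in one statement

(1) linear dimension reduction into `C_p n log n / ε ^ 2` coordinates with distortion `1 ± ε` of the
`p`-th powers of the distances; (2) `d_p(n, D) ≤ C_{p,D} n log n` for `p ≥ 2`;
(3) `d_p(n, D) ≥ c_p (log n / log log n)^(p/2) / D^p` for `p > 2`.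
-/

namespace Vale.Agent.Results.P249.A_Combined

open Finset
open Vale.Agent.Lib.P249.Lower

theorem result :
    (∀ p : ℝ, 2 ≤ p →
      ∃ C : ℝ, ∀ ε : ℝ, 0 < ε → ε ≤ 1 → ∀ n : ℕ, 2 ≤ n →
        ∃ d : ℕ, (d : ℝ) ≤ C * n * Real.log n / ε ^ 2 ∧
          ∀ (m : ℕ) (x : Fin n → Fin m → ℝ),
            ∃ T : (Fin m → ℝ) →ₗ[ℝ] (Fin d → ℝ), ∀ i j,
              (1 - ε) * ∑ k, |(x i - x j) k| ^ p ≤ ∑ r, |T (x i - x j) r| ^ p ∧
              ∑ r, |T (x i - x j) r| ^ p ≤ (1 + ε) * ∑ k, |(x i - x j) k| ^ p) ∧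
    (∀ p : ℝ, 2 ≤ p → ∀ D : ℝ, 1 < D →
      ∃ C : ℝ, ∀ n : ℕ, 2 ≤ n →
        ∃ d : ℕ, (d : ℝ) ≤ C * n * Real.log n ∧ Embeds p n D d) ∧
    (∀ p : ℝ, 2 < p →
      ∃ c : ℝ, 0 < c ∧ ∀ D : ℝ, 1 ≤ D → ∀ n : ℕ, 16 ≤ n → ∀ d : ℕ, Embeds p n D d →
        c * (Real.log n / Real.log (Real.log n)) ^ (p / 2) / D ^ p ≤ d) :=
  ⟨fun p hp => Vale.Agent.Results.P249.LinearEps.result p hp,
   fun p hp D hD => Vale.Agent.Results.P249.NLogN.result p hp D hD,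
   fun p hp => Vale.Agent.Results.P249.LowerBound.result p hp⟩

end Vale.Agent.Results.P249.A_Combined
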