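import Mathlib
import Vale.Agent.Lib.P249.Lower.EmbDefs
import Vale.Agent.Results.P249.LowerBound
import Vale.Agent.Results.P249.NLogN

/-!
# P249: two-sided bounds for `d_p(n, D)`, `p > 2`

For every `p > 2` and `D > 1` there are `c, C > 0` with
`c (log n / log log n)^(p/2) ≤ d_p(n, D) ≤ C n log n` for all `n ≥ 16`.
-/

namespace Vale.Agent.Results.P249.TwoSided

open Vale.Agent.Lib.P249.Lower

theorem result (p : ℝ) (hp : 2 < p) (D : ℝ) (hD : 1 < D) :
    ∃ c C : ℝ, 0 < c ∧ 0 < C ∧ ∀ n : ℕ, 16 ≤ n →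
      (∀ d : ℕ, Embeds p n D d →
        c * (Real.log n / Real.log (Real.log n)) ^ (p / 2) ≤ d) ∧
      (∃ d : ℕ, (d : ℝ) ≤ C * n * Real.log n ∧ Embeds p n D d) := by
  obtain ⟨c, hc0, hc⟩ := Vale.Agent.Results.P249.LowerBound.result p hp
  obtain ⟨C, hC⟩ := Vale.Agent.Results.P249.NLogN.result p hp.le D hD
  have hD0 : 0 < D := by linarith
  have hDp : 0 < D ^ p := Real.rpow_pos_of_pos hD0 p
  refine ⟨c / D ^ p, |C| + 1, by positivity, by positivity, fun n hn => ⟨fun d hE => ?_, ?_⟩⟩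
  · have h := hc D hD.le n hn d hE
    calc c / D ^ p * (Real.log n / Real.log (Real.log n)) ^ (p / 2)
        = c * (Real.log n / Real.log (Real.log n)) ^ (p / 2) / D ^ p := by ring
      _ ≤ d := h
  · obtain ⟨d, hd, hE⟩ := hC n (by omega)
    refine ⟨d, ?_, hE⟩
    have hn1 : (1 : ℝ) ≤ n := by
      have : 1 ≤ n := by omega
      exact_mod_cast this
    have hlog : 0 ≤ Real.log n := Real.log_nonneg hn1
    have hCle : C ≤ |C| + 1 := by linarith [le_abs_self C]
    calc (d : ℝ) ≤ C * n * Real.log n := hd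
      _ ≤ (|C| + 1) * n * Real.log n := by
        apply mul_le_mul_of_nonneg_right _ hlog
        apply mul_le_mul_of_nonneg_right hCle (by linarith)

end Vale.Agent.Results.P249.TwoSided
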